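import Vale.Agent.P022D.Rep.Crt
import Vale.Agent.P022D.Fm.Hig
import Vale.Agent.P022F.As.Defs2
import Vale.Agent.P022F.Ns

/-!
P022D, block REP: the combinatorial field of the forms side, and trace one operators from norms.
-/

set_option linter.all false

noncomputable section

namespace Vale.Agent.P022F.Rep

open Classical

section comb

variable {ι : Type} [Fintype ι] [DecidableEq ι] {F : Type} [Field F] [CharP F 2]
  (l : ι → ℕ) [∀ i, Fact (l i).Prime] [∀ i, Fintype (P022D.Rep.PG (ZMod (l i)))]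
  (C : ∀ i, P022D.Rep.Ch (ZMod (l i)) F)

theorem mulL {a a' : ι → ℕ} (h1 : ∀ i, ∃ u, l i = 2 ^ (a i + 1) * (2 * u + 1) + 1)
    (h2 : ∀ i, ∃ v, l i + 1 = 2 ^ (a' i + 1) * (2 * v + 1)) (i : ι) :
    P022D.Rep.MulR (P022D.Rep.bnP (ZMod (l i))) (C i) (2 ^ (a i + 1)) (2 ^ a i + 2 ^ a' i) := by
  obtain ⟨u, hu⟩ := h1 i
  obtain ⟨v, hv⟩ := h2 i
  have h := P022D.Rep.mulP (ZMod (l i)) (C i) (a := a i + 1) (b := a' i + 1) (odd_two_mul_add_one u)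
    (odd_two_mul_add_one v) (by rw [ZMod.card, ← hu]) (by rw [ZMod.card, ← hv]) (by omega)
  refine h.mono le_rfl (le_of_eq ?_)
  rw [pow_succ, pow_succ]
  omega

/-- odd primes have the two valuations -/
theorem ex_val {p : ℕ} (hp : p.Prime) (h2 : p ≠ 2) :
    (∃ a u, p = 2 ^ (a + 1) * (2 * u + 1) + 1) ∧ ∃ a v, p + 1 = 2 ^ (a + 1) * (2 * v + 1) := by
  have key : ∀ n : ℕ, n ≠ 0 → Even n → ∃ a u, n = 2 ^ (a + 1) * (2 * u + 1) := by
    intro n hn he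
    obtain ⟨k, m, ⟨u, hu⟩, e⟩ := Nat.exists_eq_two_pow_mul_odd hn
    cases k with
    | zero =>
      rw [pow_zero, one_mul] at e
      exact absurd he (Nat.not_even_iff_odd.2 ⟨u, e ▸ hu⟩)
    | succ k => exact ⟨k, u, by rw [e, hu]⟩
  obtain ⟨k, hk⟩ := hp.odd_of_ne_two h2
  have h1 := hp.two_le
  constructor
  · obtain ⟨a, u, e⟩ := key (p - 1) (by omega) ⟨k, by omega⟩
    exact ⟨a, u, by omega⟩
  · exact key (p + 1) (by omega) ⟨k + 1, by omega⟩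

theorem ex_mul (h : ∀ i, l i ≠ 2) : ∃ m1 m2 : ι → ℕ, (∀ i, m1 i ≠ 0) ∧
    ∀ i, P022D.Rep.MulR (P022D.Rep.bnP (ZMod (l i))) (C i) (m1 i) (m2 i) := by
  choose a h1 using fun i => (ex_val (Fact.out : (l i).Prime) (h i)).1
  choose a' h2 using fun i => (ex_val (Fact.out : (l i).Prime) (h i)).2
  exact ⟨_, _, fun i => by positivity, mulL l C h1 h2⟩

/-- **the field `comb` of `As.HD2`** -/
theorem combL (a a' : ι → ℕ) (h1 : ∀ i, ∃ u, l i = 2 ^ (a i + 1) * (2 * u + 1) + 1)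
    (h2 : ∀ i, ∃ v, l i + 1 = 2 ^ (a' i + 1) * (2 * v + 1))
    (N : P022D.Rep.TX (fun i => P022D.Rep.bnP (ZMod (l i))) C → ℕ∞)
    (hN : ∀ i j k, P022D.Rep.SesX (fun i => P022D.Rep.bnP (ZMod (l i))) C i j k → N j = N i + N k) (J : Finset ι) :
    (P022D.As.mul2 a a' J : ℕ∞) * N (P022D.Rep.XJ (fun i => P022D.Rep.bnP (ZMod (l i))) C J) ≤
      N (P022D.Rep.XG (fun i => P022D.Rep.bnP (ZMod (l i))) C) := by
  have e : P022D.As.mul2 a a' J = ∏ i, if i ∈ J then 2 ^ a i + 2 ^ a' i else 2 ^ (a i + 1) := by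
    unfold P022D.As.mul2
    refine Finset.prod_congr rfl fun i _ => ?_
    by_cases hi : i ∈ J
    · rw [if_pos hi, if_pos hi]
    · rw [if_neg hi, if_neg hi]
  rw [e]
  exact P022D.Rep.combH _ C _ _ (mulL l C h1 h2) N hN J

end comb

section theta

theorem theta_gen {F W G : Type} [Field F] [CharP F 2] [AddCommGroup W] [Module F W] [Group G]
    [Fintype G] (ρ : G →* Module.End F W)
    (hN : ∀ (S : Subgroup G) (s : Finset G), (∀ g, g ∈ s ↔ g ∈ S) → IsPGroup 2 S → ∀ w : W,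
      (∀ g ∈ S, ρ g w = w) → ∃ w', w = ∑ g ∈ s, ρ g w') :
    ∃ θ : Module.End F W, ∀ v, ∑ g, ρ g (θ (ρ g⁻¹ v)) = v := by
  haveI : Fact (Nat.Prime 2) := ⟨Nat.prime_two⟩
  obtain ⟨S⟩ : Nonempty (Sylow 2 G) := inferInstance
  have h0 : ∀ v : W, v + v = 0 := fun v => by
    rw [← two_smul F, CharTwo.two_eq_zero, zero_smul]
  have hi : Odd (S : Subgroup G).index :=
    Nat.not_even_iff_odd.1 fun e => S.not_dvd_index (even_iff_two_dvd.1 e)
  obtain ⟨θ, -, hθ⟩ := P022D.Fm.hig_ss (R := F) h0 ρ (S : Subgroup G) S.isPGroup' hi fun v hv => by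
    obtain ⟨w', hw'⟩ := hN S (Finset.univ.filter fun g => g ∈ (S : Subgroup G)) (by simp)
      S.isPGroup' v hv
    exact ⟨w', hw'.trans (Finset.sum_subtype _ (by simp) fun g => ρ g w')⟩
  exact ⟨θ, hθ⟩

variable {ι : Type} [Fintype ι] [DecidableEq ι] {F : Type} [Field F] [CharP F 2] {Γ : ι → Type}
  [∀ i, Group (Γ i)] [∀ i, Fintype (Γ i)] {T W : Type} [Ring T] [AddCommGroup W] [Module T W]
  (E : P022D.Rep.Act F Γ T W)

/-- **if the invariants of the 2-subgroups are norms, there is a trace one operator** -/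
theorem _root_.Vale.Agent.P022D.Rep.Act.ex_thetaF {Δ : Type} [Group Δ] [Fintype Δ] (σ : Δ →* Module.End T W)
    (h1 : ∀ d c, Commute (σ d) (E.sc c)) (h2 : ∀ d g, Commute (σ d) (E.ρ g))
    (hN : ∀ (S : Subgroup (Δ × ∀ i, Γ i)) (s : Finset (Δ × ∀ i, Γ i)), (∀ g, g ∈ s ↔ g ∈ S) →
      IsPGroup 2 S → ∀ w : W, (∀ g ∈ S, σ g.1 (E.ρ g.2 w) = w) →
        ∃ w', w = ∑ g ∈ s, σ g.1 (E.ρ g.2 w')) :
    ∃ θ : W →+ W, (∀ c w, θ (E.sc c w) = E.sc c (θ w)) ∧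
      ∀ w, ∑ d : Δ, σ d (∑ g : ∀ i, Γ i, E.ρ g (θ (E.ρ g⁻¹ (σ d⁻¹ w)))) = w := by
  letI : Module F W := Module.compHom W E.sc
  have hs : ∀ (c : F) (w : W), c • w = E.sc c w := fun _ _ => rfl
  have e1 : ∀ d c w, σ d (E.sc c w) = E.sc c (σ d w) := fun d c w =>
    LinearMap.congr_fun (h1 d c).eq w
  have e2 : ∀ d g w, σ d (E.ρ g w) = E.ρ g (σ d w) := fun d g w =>
    LinearMap.congr_fun (h2 d g).eq w
  have e3 : ∀ c g w, E.ρ g (E.sc c w) = E.sc c (E.ρ g w) := fun c g w =>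
    (LinearMap.congr_fun (E.comm c g).eq w).symm
  let ρ : (Δ × ∀ i, Γ i) →* Module.End F W :=
    { toFun := fun g =>
        { toFun := fun w => σ g.1 (E.ρ g.2 w)
          map_add' := fun x y => by rw [map_add, map_add]
          map_smul' := fun c w => by rw [RingHom.id_apply, hs, hs, e3, e1] }
      map_one' := LinearMap.ext fun w => by
        show σ 1 (E.ρ 1 w) = w
        rw [map_one, map_one]
        rfl
      map_mul' := fun g h => LinearMap.ext fun w => by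
        show σ (g.1 * h.1) (E.ρ (g.2 * h.2) w) = σ g.1 (E.ρ g.2 (σ h.1 (E.ρ h.2 w)))
        rw [map_mul, map_mul, Module.End.mul_apply, Module.End.mul_apply, e2 h.1] }
  have hρ : ∀ g w, ρ g w = σ g.1 (E.ρ g.2 w) := fun _ _ => rfl
  obtain ⟨θ, hθ⟩ := theta_gen ρ hN
  refine ⟨θ.toAddMonoidHom, fun c w => θ.map_smul c w, fun w => ?_⟩
  conv_rhs => rw [← hθ w, Fintype.sum_prod_type]
  refine Finset.sum_congr rfl fun d _ => ?_
  rw [map_sum]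
  refine Finset.sum_congr rfl fun g _ => ?_
  rw [hρ, hρ]
  show σ d (E.ρ g (θ (E.ρ g⁻¹ (σ d⁻¹ w)))) = σ d (E.ρ g (θ (σ d⁻¹ (E.ρ g⁻¹ w))))
  rw [e2 d⁻¹]

/-- the two consequences: exact sequences and freeness on all `Y I` -/
theorem _root_.Vale.Agent.P022D.Rep.Act.of_normF {Δ : Type} [Group Δ] [Fintype Δ] (σ : Δ →* Module.End T W)
    (h1 : ∀ d c, Commute (σ d) (E.sc c)) (h2 : ∀ d g, Commute (σ d) (E.ρ g))
    (hN : ∀ (S : Subgroup (Δ × ∀ i, Γ i)) (s : Finset (Δ × ∀ i, Γ i)), (∀ g, g ∈ s ↔ g ∈ S) →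
      IsPGroup 2 S → ∀ w : W, (∀ g ∈ S, σ g.1 (E.ρ g.2 w) = w) →
        ∃ w', w = ∑ g ∈ s, σ g.1 (E.ρ g.2 w')) :
    (∃ θ, E.Hig θ) ∧ ∀ (I : P022D.Rep.Tu F Γ), ∀ w ∈ E.Y I, (∀ d, σ d w = w) →
      ∃ w' ∈ E.Y I, w = ∑ d : Δ, σ d w' := by
  obtain ⟨θ, h3, h4⟩ := E.ex_thetaF σ h1 h2 hN
  exact ⟨⟨_, E.hig_of σ θ h1 h2 h3 h4⟩, fun I w hw hf => E.norm_of_fix σ θ h3 h4 hw hf⟩

end theta

end Vale.Agent.P022F.Rep
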