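import Vale.Agent.P022D.Rep.Defs

namespace Vale.Agent.P022F.Rep.BN
export Vale.Agent.P022D.Rep.BN (
  w th t_u th_t w_not t u_mem w_w th_u th_mul w_t wuw u u_add th_w mk t_mul bruhat B t_mem)
end Vale.Agent.P022F.Rep.BN

namespace Vale.Agent.P022F.Rep
export Vale.Agent.P022D.Rep (
  nB ee Kk IsAdd Triv chi BN chi_add v0 Ch Ind GG el MFun Pib)
end Vale.Agent.P022F.Rep

namespace Vale.Agent.P022F.Rep.IsAdd
export Vale.Agent.P022D.Rep.IsAdd (
  zero add mk)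
end Vale.Agent.P022F.Rep.IsAdd

namespace Vale.Agent.P022F.Rep.Ch
export Vale.Agent.P022D.Rep.Ch (
  ψ li li_mul mk orth)
end Vale.Agent.P022F.Rep.Ch
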