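import Vale.Agent.P022D.Rep.Basic
import Vale.Agent.P022F.Rep.Defs

namespace Vale.Agent.P022F.Rep.BN
export Vale.Agent.P022D.Rep.BN (
  t_one t_w t_comm z_comm u_zero z_u low_not)
end Vale.Agent.P022F.Rep.BN

namespace Vale.Agent.P022F.Rep
export Vale.Agent.P022D.Rep (
  el_ind coeff_v0 b_nB sum_ee el_pow ee_a_nB z_mul t_ee0 coeff_nB ee_g_nB coeff_el u_ee
  chi_of ee_orth ee_u el_mul ee_idem chi_mul_ee ee_v0 chi_sub t_ee chi_mul el_one chi_z
  ee_ee chi_spec ee1_nB coeff_el_mul ee0_fix chi_ee_mul chi_smul chi_one ee0_nB)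
end Vale.Agent.P022F.Rep
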