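import Vale.Agent.P022D.Rep.Dec
import Vale.Agent.P022F.Rep.Fx

namespace Vale.Agent.P022F.Rep.Ng
export Vale.Agent.P022D.Rep.Ng (
  w smul sl u sq)
end Vale.Agent.P022F.Rep.Ng

namespace Vale.Agent.P022F.Rep
export Vale.Agent.P022D.Rep (
  sA simple_cases dec chi_ee0 card_one Ng InC Wh simple_case2 ee0_w_v0_two ng_t li_one
  simple_triv triv_smul simple_case1 sq_two)
end Vale.Agent.P022F.Rep

namespace Vale.Agent.P022F.Rep.InC
export Vale.Agent.P022D.Rep.InC (
  wh surj)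
end Vale.Agent.P022F.Rep.InC

namespace Vale.Agent.P022F.Rep.Wh
export Vale.Agent.P022D.Rep.Wh (
  fix ng)
end Vale.Agent.P022F.Rep.Wh
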