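import Vale.Agent.P022D.Rep.Cnt
import Vale.Agent.P022F.Rep.Dec
import Vale.Agent.P022F.Rep.Gen

namespace Vale.Agent.P022F.Rep
export Vale.Agent.P022D.Rep (
  gen_bound numer cyc_le ee0_span cyc_unip)
end Vale.Agent.P022F.Rep

namespace Vale.Agent.P022F.Rep.Wh
export Vale.Agent.P022D.Rep.Wh (
  z)
end Vale.Agent.P022F.Rep.Wh
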