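import Vale.Agent.P022D.Rep.Ser
import Vale.Agent.P022F.Rep.Main

namespace Vale.Agent.P022F.Rep
export Vale.Agent.P022D.Rep (
  Stp mul_of Ip simple_gen comb It stp_mod Ig Ib Mul)
end Vale.Agent.P022F.Rep
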