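import Vale.Agent.P022D.Rep.Inst
import Vale.Agent.P022F.Rep.Ser

namespace Vale.Agent.P022F.Rep.Quo
export Vale.Agent.P022D.Rep.Quo (
  card_T mk ker th surj mul bn card_G)
end Vale.Agent.P022F.Rep.Quo

namespace Vale.Agent.P022F.Rep
export Vale.Agent.P022D.Rep (
  tG_u card_ker_mk card_two wG_t wG thG_u card_top Quo wG_uw tG thG_w uG_coe wG_coe wG_w
  thG_coe tG_mul scal_comm mkCh uG_add quo_mk thG bruhatG mem_BG tG_inj scal thG_mul BG uG
  tG_coe thG_t)
end Vale.Agent.P022F.Rep
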