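import Vale.Agent.P022D.Rep.Hig
import Vale.Agent.P022F.Rep.Ser

namespace Vale.Agent.P022F.Rep.Act
export Vale.Agent.P022D.Rep.Act (
  Hig al_smul av_sc stp_surj sc al_single comm ρ nat_mem mem_Y stp av Y_anti stp_le Y
  stp_exact al mem_Y_update mk av_ρ av_tr al_el al_nat al_alg stp_coe al_comm av_apply)
end Vale.Agent.P022F.Rep.Act

namespace Vale.Agent.P022F.Rep.Act.Hig
export Vale.Agent.P022D.Rep.Act.Hig (
  mk tr sc)
end Vale.Agent.P022F.Rep.Act.Hig

namespace Vale.Agent.P022F.Rep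
export Vale.Agent.P022D.Rep (
  hig_ext hig_step Act)
end Vale.Agent.P022F.Rep
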