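import Vale.Agent.P022D.Rep.R
import Vale.Agent.P022F.Rep.Hig

namespace Vale.Agent.P022F.Rep
export Vale.Agent.P022D.Rep (
  trB_fix sup_eq_It combF wh_of_B bf_pair fix_of_B trB_nB nB_ann trB_eq comb2 Ses bf_span
  ee0_w_ee_w TJ ee1_bf Ib_le_It Ig_le_Ip col_p TG col_t ip_kill trB Tu)
end Vale.Agent.P022F.Rep

namespace Vale.Agent.P022F.Rep.Act
export Vale.Agent.P022D.Rep.Act (
  kill_Ib kill_span kill_Ig ses al_ee fix_of_B kill_sup kill_It al_trB)
end Vale.Agent.P022F.Rep.Act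

namespace Vale.Agent.P022F.Rep.Stp
export Vale.Agent.P022D.Rep.Stp (
  ind)
end Vale.Agent.P022F.Rep.Stp
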