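import Vale.Agent.P022D.Rep.Gn
import Vale.Agent.P022F.Rep.Rs

namespace Vale.Agent.P022F.Rep.Act
export Vale.Agent.P022D.Rep.Act (
  kill_of_G nat_mem2 ex_gen al_nat2 gen_ind)
end Vale.Agent.P022F.Rep.Act

namespace Vale.Agent.P022F.Rep.MulR
export Vale.Agent.P022D.Rep.MulR (
  ex_triv)
end Vale.Agent.P022F.Rep.MulR

namespace Vale.Agent.P022F.Rep
export Vale.Agent.P022D.Rep (
  Ig_le_Ip1 Ig_not_le_It)
end Vale.Agent.P022F.Rep
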