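import Vale.Agent.P022D.Rep.Crt
import Vale.Agent.P022F.Rep.Gn
import Vale.Agent.P022F.V.Grp

namespace Vale.Agent.P022F.Rep.Pre
export Vale.Agent.P022D.Rep.Pre (
  nat act_sc kill_Ib kill_Ig ρ bar_comm bar ind c2 act c1 mk act_ρ al_trB kill_It z mem_TG
  sc mem_XS)
end Vale.Agent.P022F.Rep.Pre

namespace Vale.Agent.P022F.Rep
export Vale.Agent.P022D.Rep (
  embM emb_B emb_coe rq sum_Uq emb_w emb_t f_map rq_lam lam lamU_cg lam_one emb_pr lamU Pre
  rq_f emb_U lamU_coe emb_mem Ts_eq fI rq_lamU isS_eq eI rq_e datI emb_comm2 f_lam un_Uq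
  mem_Kq emb_comm emb dq e_lam e_nat lam_nat lamU_surj pr_emb Kq_mono emb_inj emb_u lam_rq)
end Vale.Agent.P022F.Rep
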